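import Vale.Agent.P113.H803.Bump

set_option autoImplicit false

/-! Periodization `P[g](y) = ∑_{m ∈ ℤ} g(y+m)` of functions with bounded support. -/

namespace Vale.Agent.P113.H803

open Set

/-- `g` vanishes outside `[-R, R]` -/
def SuppIn (R : ℝ) (g : ℝ → ℝ) : Prop := ∀ s, R < |s| → g s = 0

theorem SuppIn.mono {R R' : ℝ} {g : ℝ → ℝ} (h : SuppIn R g) (hR : R ≤ R') : SuppIn R' g :=
  fun s hs => h s (lt_of_le_of_lt hR hs)

theorem per_eq_sum {R : ℝ} {g : ℝ → ℝ} (h : SuppIn R g) {N : ℕ} {y : ℝ} (hy : |y| + R ≤ N) :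
    periodize g y = ∑ m ∈ Finset.Icc (-(N : ℤ)) N, g (y + m) := by
  unfold periodize
  refine tsum_eq_sum fun m hm => h _ ?_
  rw [Finset.mem_Icc, ← abs_le, not_le] at hm
  have h1 : (N : ℝ) < |(m : ℝ)| := by
    rw [← Int.cast_abs]; exact_mod_cast hm
  have h2 : |(m : ℝ)| ≤ |y + m| + |y| := by
    calc |(m : ℝ)| = |(y + m) - y| := by rw [add_sub_cancel_left]
      _ ≤ |y + m| + |y| := abs_sub _ _
  linarith

theorem per_eventuallyEq {R : ℝ} {g : ℝ → ℝ} (h : SuppIn R g) (y₀ : ℝ) {N : ℕ}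
    (hy : |y₀| + 1 + R ≤ N) :
    periodize g =ᶠ[nhds y₀] fun y => ∑ m ∈ Finset.Icc (-(N : ℤ)) N, g (y + m) := by
  filter_upwards [Metric.ball_mem_nhds y₀ one_pos] with y hy1
  refine per_eq_sum h ?_
  rw [Metric.mem_ball, Real.dist_eq] at hy1
  have : |y| ≤ |y - y₀| + |y₀| := by
    calc |y| = |(y - y₀) + y₀| := by rw [sub_add_cancel]
      _ ≤ _ := abs_add_le _ _
  linarith

theorem per_contDiff {R : ℝ} {g : ℝ → ℝ} (h : SuppIn R g) {n : WithTop ℕ∞} (hg : ContDiff ℝ n g) :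
    ContDiff ℝ n (periodize g) := by
  rw [contDiff_iff_contDiffAt]
  intro y₀
  obtain ⟨N, hN⟩ := exists_nat_ge (|y₀| + 1 + R)
  refine ContDiffAt.congr_of_eventuallyEq ?_ (per_eventuallyEq h y₀ hN)
  exact (ContDiff.sum fun m _ => hg.comp (contDiff_id.add contDiff_const)).contDiffAt

theorem per_continuous {R : ℝ} {g : ℝ → ℝ} (h : SuppIn R g) (hg : Continuous g) :
    Continuous (periodize g) := by
  rw [← contDiff_zero (𝕜 := ℝ)] at hg ⊢
  exact per_contDiff h hg

theorem hasDerivAt_per {R : ℝ} {g g' : ℝ → ℝ} (h : SuppIn R g) (h' : SuppIn R g')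
    (hg : ∀ s, HasDerivAt g (g' s) s) (y : ℝ) : HasDerivAt (periodize g) (periodize g' y) y := by
  obtain ⟨N, hN⟩ := exists_nat_ge (|y| + 1 + R)
  refine HasDerivAt.congr_of_eventuallyEq ?_ (per_eventuallyEq h y hN)
  rw [per_eq_sum h' (by linarith : |y| + R ≤ N)]
  have := HasDerivAt.fun_sum (u := Finset.Icc (-(N : ℤ)) N)
    (A := fun m s => g (s + m)) (A' := fun m => g' (y + m)) (x := y)
    fun m _ => (hg (y + m)).comp_add_const y m
  exact this

theorem per_add_one (g : ℝ → ℝ) (y : ℝ) : periodize g (y + 1) = periodize g y := by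
  unfold periodize
  rw [← (Equiv.addRight (1 : ℤ)).tsum_eq fun m : ℤ => g (y + m)]
  refine tsum_congr fun m => ?_
  congr 1
  simp only [Equiv.coe_addRight, Int.cast_add, Int.cast_one]
  ring

theorem per_periodic (g : ℝ → ℝ) : Function.Periodic (periodize g) 1 := per_add_one g

theorem per_add_int (g : ℝ → ℝ) (y : ℝ) (n : ℤ) : periodize g (y + n) = periodize g y := by
  have := (per_periodic g).int_mul n y
  rwa [mul_one] at this

theorem per_add_nat (g : ℝ → ℝ) (y : ℝ) (n : ℕ) : periodize g (y + n) = periodize g y := by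
  exact_mod_cast per_add_int g y n

/-- a function supported in `[0,1]` agrees there with its periodization, up to one value -/
theorem per_eq_self {g : ℝ → ℝ} (h0 : ∀ s, s ≤ 0 → g s = 0) (h1 : ∀ s, 1 ≤ s → g s = 0) {y : ℝ}
    (hy0 : 0 ≤ y) (hy1 : y ≤ 1) : periodize g y = g y := by
  unfold periodize
  rw [tsum_eq_single 0]
  · simp
  · intro m hm
    rcases lt_or_gt_of_ne hm with h | h
    · have : (m : ℝ) ≤ -1 := by exact_mod_cast Int.le_sub_one_of_lt h
      exact h0 _ (by linarith)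
    · have : (1 : ℝ) ≤ m := by exact_mod_cast h
      exact h1 _ (by linarith)

theorem per_eq_self' {g : ℝ → ℝ} (h0 : ∀ s, s ≤ 0 → g s = 0) (h1 : ∀ s, 1 ≤ s → g s = 0) {y : ℝ}
    {n : ℤ} (hy0 : n ≤ y) (hy1 : y ≤ n + 1) : periodize g y = g (y - n) := by
  rw [← per_eq_self h0 h1 (y := y - n) (by linarith) (by linarith), ← per_add_int g (y - n) n,
    sub_add_cancel]

/-! The bumps `s^k ρ^{(j)}(as-b)` and `s^k π_l(as-b)`. -/

/-- `s^k ρ^{(j)}(as-b)` -/
noncomputable def bumpD (k j : ℕ) (a b s : ℝ) : ℝ := s ^ k * iteratedDeriv j rho (a * s - b)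

/-- `s^k π_l(as-b)` -/
noncomputable def bumpP (k : ℕ) (a b l s : ℝ) : ℝ := s ^ k * piL l (a * s - b)

theorem bumpD_contDiff {n : ℕ∞} (k j : ℕ) (a b : ℝ) : ContDiff ℝ n (bumpD k j a b) :=
  (contDiff_id.pow k).mul ((contDiff_iteratedDeriv_rho j).comp
    ((contDiff_const.mul contDiff_id).sub contDiff_const))

theorem bumpP_contDiff {n : ℕ∞} (k : ℕ) (a b l : ℝ) : ContDiff ℝ n (bumpP k a b l) :=
  (contDiff_id.pow k).mul ((plat_contDiff l).comp
    ((contDiff_const.mul contDiff_id).sub contDiff_const))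

theorem hasDerivAt_bumpD (k j : ℕ) (a b s : ℝ) : HasDerivAt (bumpD k j a b)
    (k * bumpD (k - 1) j a b s + a * bumpD k (j + 1) a b s) s := by
  have h1 : HasDerivAt (fun s : ℝ => a * s - b) a s := by
    simpa using ((hasDerivAt_id s).const_mul a).sub_const b
  have h2 := (hasDerivAt_iteratedDeriv_rho j (a * s - b)).comp s h1
  have h3 := (hasDerivAt_pow k s).mul h2
  refine h3.congr_deriv ?_
  unfold bumpD
  simp only [Function.comp_apply]
  ring

theorem hasDerivAt_bumpP (k : ℕ) (a b l s : ℝ) : HasDerivAt (bumpP k a b l)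
    (k * bumpP (k - 1) a b l s + (a * bumpD k 0 a b s - a * bumpD k 0 a (b + l) s)) s := by
  have h1 : HasDerivAt (fun s : ℝ => a * s - b) a s := by
    simpa using ((hasDerivAt_id s).const_mul a).sub_const b
  have h2 := (hasDerivAt_plat l (a * s - b)).comp s h1
  have h3 := (hasDerivAt_pow k s).mul h2
  refine h3.congr_deriv ?_
  unfold bumpD bumpP
  simp only [Function.comp_apply, iteratedDeriv_zero]
  rw [show a * s - (b + l) = a * s - b - l by ring]
  ring

/-- a radius for the support of both kinds of bumps -/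
theorem abs_of_lt_abs_affine {a b c s : ℝ} (ha : a ≠ 0) (h : (|b| + c) / |a| < |s|) :
    c < |a * s - b| := by
  have ha' : 0 < |a| := abs_pos.2 ha
  rw [div_lt_iff₀ ha', mul_comm, ← abs_mul] at h
  have : |a * s| ≤ |a * s - b| + |b| := by
    calc |a * s| = |(a * s - b) + b| := by rw [sub_add_cancel]
      _ ≤ _ := abs_add_le _ _
  linarith

theorem suppIn_bumpD (k j : ℕ) {a : ℝ} (b : ℝ) (ha : a ≠ 0) :
    SuppIn ((|b| + 1) / |a|) (bumpD k j a b) := by
  intro s hs
  unfold bumpD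
  rw [iteratedDeriv_rho_eq_zero j (abs_of_lt_abs_affine ha hs).le, mul_zero]

theorem suppIn_bumpP (k : ℕ) {a : ℝ} (b : ℝ) {l : ℝ} (ha : a ≠ 0) (hl : 0 ≤ l) :
    SuppIn ((|b| + (l + 1)) / |a|) (bumpP k a b l) := by
  intro s hs
  unfold bumpP
  have h := abs_of_lt_abs_affine ha hs
  rcases lt_abs.1 h with h1 | h1
  · rw [plat_of_ge hl h1.le, mul_zero]
  · rw [plat_of_le hl (by linarith), mul_zero]

end Vale.Agent.P113.H803
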