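import Vale.Agent.P113.H803.Per

set_option autoImplicit false

/-! Closure of the admissible functions under derivatives. -/

namespace Vale.Agent.P113.H803

open Set

theorem exists_ratVal (q : ℚ) : ∃ r : ℤ × ℕ, ratVal r = q := by
  refine ⟨(q.num, q.den - 1), ?_⟩
  have h1 : (1 : ℕ) ≤ q.den := q.pos
  unfold ratVal
  push_cast [h1]
  rw [sub_add_cancel]
  exact Rat.num_div_den q

/-- the value of a bump through `bumpD`, `bumpP` -/
theorem val_eq_bumpD {g : Bump} {j : ℕ} (h : g.shape = Sum.inl j) :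
    g.val = bumpD g.k j (ratVal g.a) (ratVal g.b) := by
  funext s
  unfold Bump.val bumpD
  rw [h]

theorem val_eq_bumpP {g : Bump} {l : ℤ × ℕ} (h : g.shape = Sum.inr l) :
    g.val = bumpP g.k (ratVal g.a) (ratVal g.b) (ratVal l) := by
  funext s
  unfold Bump.val bumpP
  rw [h]

theorem val_contDiff (g : Bump) {n : ℕ∞} : ContDiff ℝ n g.val := by
  rcases h : g.shape with j | l
  · rw [val_eq_bumpD h]; exact bumpD_contDiff _ _ _ _
  · rw [val_eq_bumpP h]; exact bumpP_contDiff _ _ _ _

theorem exists_suppIn {g : Bump} (hg : g.Valid) : ∃ R, SuppIn R g.val := by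
  have ha : (ratVal g.a : ℝ) ≠ 0 := by exact_mod_cast hg.1
  rcases h : g.shape with j | l
  · exact ⟨_, by rw [val_eq_bumpD h]; exact suppIn_bumpD _ _ _ ha⟩
  · have hl : (0 : ℝ) ≤ ratVal l := by exact_mod_cast (hg.2 l h).le
    exact ⟨_, by rw [val_eq_bumpP h]; exact suppIn_bumpP _ _ ha hl⟩

theorem exists_suppIn_list {D : List Bump} (hD : ∀ g ∈ D, g.Valid) :
    ∃ R, ∀ g ∈ D, SuppIn R g.val := by
  induction D with
  | nil => exact ⟨0, by simp⟩
  | cons g D ih =>
    obtain ⟨R1, h1⟩ := ih fun g' hg' => hD g' (List.mem_cons_of_mem _ hg')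
    obtain ⟨R2, h2⟩ := exists_suppIn (hD g List.mem_cons_self)
    refine ⟨max R1 R2, fun g' hg' => ?_⟩
    rcases List.mem_cons.1 hg' with rfl | h
    · exact h2.mono (le_max_right _ _)
    · exact (h1 g' h).mono (le_max_left _ _)

/-- rational combinations of bumps -/
noncomputable def comb (D : List ((ℤ × ℕ) × Bump)) (s : ℝ) : ℝ :=
  (D.map fun d => (ratVal d.1 : ℝ) * d.2.val s).sum

/-- rational combinations of periodized bumps -/
noncomputable def combPer (D : List ((ℤ × ℕ) × Bump)) (s : ℝ) : ℝ :=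
  (D.map fun d => (ratVal d.1 : ℝ) * periodize d.2.val s).sum

theorem exists_bump_deriv {g : Bump} (hg : g.Valid) : ∃ D : List ((ℤ × ℕ) × Bump),
    (∀ d ∈ D, d.2.Valid) ∧ ∀ s, HasDerivAt g.val (comb D s) s := by
  obtain ⟨rk, hrk⟩ := exists_ratVal (g.k : ℚ)
  obtain ⟨rna, hrna⟩ := exists_ratVal (- ratVal g.a)
  have hk : (ratVal rk : ℝ) = g.k := by rw [hrk]; push_cast; rfl
  have hna : (ratVal rna : ℝ) = - (ratVal g.a : ℝ) := by rw [hrna]; push_cast; rfl
  rcases h : g.shape with j | l
  · refine ⟨[(rk, ⟨Sum.inl j, g.k - 1, g.a, g.b⟩), (g.a, ⟨Sum.inl (j + 1), g.k, g.a, g.b⟩)],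
      ?_, fun s => ?_⟩
    · intro d hd
      simp only [List.mem_cons, List.not_mem_nil, or_false] at hd
      rcases hd with rfl | rfl
      · exact ⟨hg.1, by simp⟩
      · exact ⟨hg.1, by simp⟩
    · rw [val_eq_bumpD h]
      refine (hasDerivAt_bumpD g.k j (ratVal g.a) (ratVal g.b) s).congr_deriv ?_
      simp only [comb, List.map_cons, List.map_nil, List.sum_cons, List.sum_nil, add_zero, hk,
        Bump.val, bumpD]
  · obtain ⟨rb, hrb⟩ := exists_ratVal (ratVal g.b + ratVal l)
    have hb : (ratVal rb : ℝ) = (ratVal g.b : ℝ) + ratVal l := by rw [hrb]; push_cast; rfl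
    refine ⟨[(rk, ⟨Sum.inr l, g.k - 1, g.a, g.b⟩), (g.a, ⟨Sum.inl 0, g.k, g.a, g.b⟩),
      (rna, ⟨Sum.inl 0, g.k, g.a, rb⟩)], ?_, fun s => ?_⟩
    · intro d hd
      simp only [List.mem_cons, List.not_mem_nil, or_false] at hd
      rcases hd with rfl | rfl | rfl
      · refine ⟨hg.1, ?_⟩
        intro l' hl'
        simp only [Sum.inr.injEq] at hl'
        subst hl'
        exact hg.2 l h
      · exact ⟨hg.1, by simp⟩
      · exact ⟨hg.1, by simp⟩
    · rw [val_eq_bumpP h]
      refine (hasDerivAt_bumpP g.k (ratVal g.a) (ratVal g.b) (ratVal l) s).congr_deriv ?_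
      simp only [comb, List.map_cons, List.map_nil, List.sum_cons, List.sum_nil, add_zero, hk,
        hna, hb, Bump.val, bumpD, bumpP]
      ring

theorem comb_suppIn {D : List ((ℤ × ℕ) × Bump)} {R : ℝ} (h : ∀ d ∈ D, SuppIn R d.2.val) :
    SuppIn R (comb D) := by
  intro s hs
  unfold comb
  apply List.sum_eq_zero
  intro y hy
  obtain ⟨d, hd, rfl⟩ := List.mem_map.1 hy
  rw [h d hd s hs, mul_zero]

theorem periodize_comb {D : List ((ℤ × ℕ) × Bump)} {R : ℝ} (h : ∀ d ∈ D, SuppIn R d.2.val)
    (y : ℝ) : periodize (comb D) y = combPer D y := by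
  obtain ⟨N, hN⟩ := exists_nat_ge (|y| + R)
  rw [per_eq_sum (comb_suppIn h) hN]
  unfold comb combPer
  induction D with
  | nil => simp
  | cons d D ih =>
    simp only [List.map_cons, List.sum_cons]
    rw [Finset.sum_add_distrib, ih fun d' hd' => h d' (List.mem_cons_of_mem _ hd'),
      ← Finset.mul_sum, ← per_eq_sum (h d List.mem_cons_self) hN]

theorem exists_per_deriv {g : Bump} (hg : g.Valid) : ∃ D : List ((ℤ × ℕ) × Bump),
    (∀ d ∈ D, d.2.Valid) ∧ (∀ s, HasDerivAt g.val (comb D s) s) ∧
      ∀ s, HasDerivAt (periodize g.val) (combPer D s) s := by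
  obtain ⟨D, hD, h⟩ := exists_bump_deriv hg
  obtain ⟨R1, hR1⟩ := exists_suppIn hg
  obtain ⟨R2, hR2⟩ := exists_suppIn_list (D := D.map Prod.snd) (by
    intro g' hg'
    obtain ⟨d, hd, rfl⟩ := List.mem_map.1 hg'
    exact hD d hd)
  have hR2' : ∀ d ∈ D, SuppIn (max R1 R2) d.2.val := fun d hd =>
    (hR2 d.2 (List.mem_map_of_mem hd)).mono (le_max_right _ _)
  refine ⟨D, hD, h, fun s => ?_⟩
  rw [← periodize_comb hR2']
  exact hasDerivAt_per (hR1.mono (le_max_left _ _)) (comb_suppIn hR2') h s

/-- the value of a time factor -/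
noncomputable def tval (g : Bool × Bump) (t : ℝ) : ℝ := if g.1 then periodize g.2.val t else g.2.val t

theorem exists_tval_deriv {g : Bool × Bump} (hg : g.2.Valid) : ∃ D : List ((ℤ × ℕ) × Bump),
    (∀ d ∈ D, d.2.Valid) ∧
      ∀ s, HasDerivAt (tval g) ((D.map fun d => (ratVal d.1 : ℝ) * tval (g.1, d.2) s).sum) s := by
  obtain ⟨D, hD, h1, h2⟩ := exists_per_deriv hg
  refine ⟨D, hD, fun s => ?_⟩
  rcases h : g.1 with _ | _
  · have e1 : tval g = g.2.val := by funext t; simp [tval, h]
    rw [e1]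
    simpa [tval, comb] using h1 s
  · have e1 : tval g = periodize g.2.val := by funext t; simp [tval, h]
    rw [e1]
    simpa [tval, combPer] using h2 s

/-- products of time factors -/
noncomputable def tprod (l : List (Bool × Bump)) (t : ℝ) : ℝ := (l.map fun g => tval g t).prod

/-- rational combinations of products of time factors -/
noncomputable def tcomb (D : List ((ℤ × ℕ) × List (Bool × Bump))) (t : ℝ) : ℝ :=
  (D.map fun d => (ratVal d.1 : ℝ) * tprod d.2 t).sum

/-- product rule for lists of time factors -/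
theorem exists_tprod_deriv {l : List (Bool × Bump)} (hl : ∀ g ∈ l, g.2.Valid) :
    ∃ D : List ((ℤ × ℕ) × List (Bool × Bump)),
      (∀ d ∈ D, (∀ g ∈ d.2, g.2.Valid) ∧ d.2.map Prod.fst = l.map Prod.fst) ∧
      ∀ s, HasDerivAt (tprod l) (tcomb D s) s := by
  induction l with
  | nil =>
    refine ⟨[], by simp, fun s => ?_⟩
    have e1 : tprod [] = fun _ => (1 : ℝ) := by funext t; simp [tprod]
    have e2 : tcomb [] s = 0 := by simp [tcomb]
    rw [e1, e2]
    exact hasDerivAt_const s (1 : ℝ)
  | cons g l ih =>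
    obtain ⟨D1, hD1, h1⟩ := ih fun g' hg' => hl g' (List.mem_cons_of_mem _ hg')
    obtain ⟨D2, hD2, h2⟩ := exists_tval_deriv (hl g List.mem_cons_self)
    refine ⟨D2.map (fun d => (d.1, (g.1, d.2) :: l)) ++ D1.map (fun d => (d.1, g :: d.2)),
      ?_, fun s => ?_⟩
    · intro d hd
      rcases List.mem_append.1 hd with hd | hd
      · obtain ⟨d', hd', rfl⟩ := List.mem_map.1 hd
        refine ⟨?_, by simp⟩
        intro g' hg'
        rcases List.mem_cons.1 hg' with rfl | hg'
        · exact hD2 d' hd'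
        · exact hl g' (List.mem_cons_of_mem _ hg')
      · obtain ⟨d', hd', rfl⟩ := List.mem_map.1 hd
        obtain ⟨h3, h4⟩ := hD1 d' hd'
        refine ⟨?_, by simp [h4]⟩
        intro g' hg'
        rcases List.mem_cons.1 hg' with rfl | hg'
        · exact hl g' List.mem_cons_self
        · exact h3 g' hg'
    · have h3 := (h2 s).mul (h1 s)
      have e1 : tprod (g :: l) = fun t => tval g t * tprod l t := by
        funext t; simp [tprod]
      rw [e1]
      refine h3.congr_deriv ?_
      simp only [tcomb, List.map_append, List.map_map, List.sum_append]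
      congr 1
      · rw [← List.sum_map_mul_right]
        congr 1
        apply List.map_congr_left
        intro d _
        simp only [Function.comp_apply, tprod, List.map_cons, List.prod_cons]
        ring
      · rw [← List.sum_map_mul_left]
        congr 1
        apply List.map_congr_left
        intro d _
        simp only [Function.comp_apply, tprod, List.map_cons, List.prod_cons]
        ring

/-! ### Terms -/

/-- products of space factors in one variable -/
noncomputable def sprod (l : List Bump) (y : ℝ) : ℝ := (l.map fun g => periodize g.val y).prod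

theorem tprod_true (l : List Bump) (y : ℝ) : tprod (l.map fun g => (true, g)) y = sprod l y := by
  simp only [tprod, sprod, List.map_map]
  congr 1

/-- product rule for lists of space factors -/
theorem exists_sprod_deriv {l : List Bump} (hl : ∀ g ∈ l, g.Valid) :
    ∃ D : List ((ℤ × ℕ) × List Bump), (∀ d ∈ D, ∀ g ∈ d.2, g.Valid) ∧
      ∀ s, HasDerivAt (sprod l) ((D.map fun d => (ratVal d.1 : ℝ) * sprod d.2 s).sum) s := by
  obtain ⟨D, hD, h⟩ := exists_tprod_deriv (l := l.map fun g => (true, g)) (by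
    intro g hg
    obtain ⟨g', hg', rfl⟩ := List.mem_map.1 hg
    exact hl g' hg')
  have e1 : tprod (l.map fun g => (true, g)) = sprod l := funext (tprod_true l)
  rw [e1] at h
  refine ⟨D.map fun d => (d.1, d.2.map Prod.snd), ?_, fun s => ?_⟩
  · intro d hd
    obtain ⟨d', hd', rfl⟩ := List.mem_map.1 hd
    intro g hg
    obtain ⟨g', hg', rfl⟩ := List.mem_map.1 hg
    exact (hD d' hd').1 g' hg'
  · refine (h s).congr_deriv ?_
    unfold tcomb
    rw [List.map_map]
    congr 1
    apply List.map_congr_left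
    intro d hd
    simp only [Function.comp_apply]
    congr 1
    rw [← tprod_true]
    congr 1
    rw [List.map_map]
    have h2 := (hD d hd).2
    rw [List.map_map] at h2
    apply List.ext_getElem
    · simp
    · intro i h3 h4
      have h5 : i < (List.map Prod.fst d.2).length := by simpa using h3
      have h6 : (List.map Prod.fst d.2)[i] = true := by
        simp only [h2, List.getElem_map, Function.comp_apply]
      rw [List.getElem_map] at h6 ⊢
      exact Prod.ext h6 rfl

theorem timeVal_eq (τ : Term) (t : ℝ) : τ.timeVal t = tprod τ.time t := rfl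

theorem spaceVal_eq (τ : Term) (x : Fin 3 → ℝ) : τ.spaceVal x = ∏ i, sprod (τ.space i) (x i) := rfl

theorem evalTerms_nil (ν t : ℝ) (x : Fin 3 → ℝ) : evalTerms [] ν t x = 0 := rfl

theorem evalTerms_cons (τ : Term) (L : List Term) (ν t : ℝ) (x : Fin 3 → ℝ) :
    evalTerms (τ :: L) ν t x = τ.val ν t x + evalTerms L ν t x := by
  simp [evalTerms]

theorem evalTerms_append (L L' : List Term) (ν t : ℝ) (x : Fin 3 → ℝ) :
    evalTerms (L ++ L') ν t x = evalTerms L ν t x + evalTerms L' ν t x := by
  simp [evalTerms]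

/-- product of two rationals -/
noncomputable def rmul (r r' : ℤ × ℕ) : ℤ × ℕ := (exists_ratVal (ratVal r * ratVal r')).choose

theorem ratVal_rmul (r r' : ℤ × ℕ) : (ratVal (rmul r r') : ℝ) = ratVal r * ratVal r' := by
  unfold rmul
  rw [(exists_ratVal (ratVal r * ratVal r')).choose_spec]
  push_cast
  rfl

/-- `F` is given by a finite list of valid periodic terms, for every viscosity -/
def IsAdm (F : ℝ → ℝ → (Fin 3 → ℝ) → ℝ) : Prop :=
  ∃ L : List Term, (∀ τ ∈ L, τ.Valid ∧ τ.isPeriodic = true) ∧ ∀ ν t x, F ν t x = evalTerms L ν t x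

theorem isAdm_zero : IsAdm fun _ _ _ => 0 := ⟨[], by simp, fun _ _ _ => (evalTerms_nil _ _ _).symm⟩

theorem IsAdm.add {F G : ℝ → ℝ → (Fin 3 → ℝ) → ℝ} (hF : IsAdm F) (hG : IsAdm G) :
    IsAdm fun ν t x => F ν t x + G ν t x := by
  obtain ⟨L, hL, h⟩ := hF
  obtain ⟨L', hL', h'⟩ := hG
  refine ⟨L ++ L', ?_, fun ν t x => by simp only [evalTerms_append, h, h']⟩
  intro τ hτ
  rcases List.mem_append.1 hτ with hτ | hτ
  · exact hL τ hτ
  · exact hL' τ hτ

theorem isAdm_sum {ι : Type*} (s : Finset ι) {F : ι → ℝ → ℝ → (Fin 3 → ℝ) → ℝ}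
    (hF : ∀ i ∈ s, IsAdm (F i)) : IsAdm fun ν t x => ∑ i ∈ s, F i ν t x := by
  classical
  induction s using Finset.induction_on with
  | empty => simpa using isAdm_zero
  | insert a s ha ih =>
    have := (hF a (Finset.mem_insert_self a s)).add
      (ih fun i hi => hF i (Finset.mem_insert_of_mem hi))
    simpa only [Finset.sum_insert ha] using this

theorem isAdm_listSum {ι : Type*} (l : List ι) {F : ι → ℝ → ℝ → (Fin 3 → ℝ) → ℝ}
    (hF : ∀ i ∈ l, IsAdm (F i)) : IsAdm fun ν t x => (l.map fun i => F i ν t x).sum := by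
  induction l with
  | nil => simpa using isAdm_zero
  | cons a s ih =>
    have := (hF a List.mem_cons_self).add (ih fun i hi => hF i (List.mem_cons_of_mem _ hi))
    simpa only [List.map_cons, List.sum_cons] using this

/-- the product of two terms -/
noncomputable def tmul (τ τ' : Term) : Term where
  q := rmul τ.q τ'.q
  m := τ.m + τ'.m
  n := τ.n + τ'.n
  logs := τ.logs ++ τ'.logs
  time := τ.time ++ τ'.time
  space := fun i => τ.space i ++ τ'.space i

theorem kappa_ne_zero' : kappa ≠ 0 := kappa_ne_zero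

theorem tmul_val (τ τ' : Term) (ν t : ℝ) (x : Fin 3 → ℝ) :
    (tmul τ τ').val ν t x = τ.val ν t x * τ'.val ν t x := by
  have h1 : (tmul τ τ').coeff ν = τ.coeff ν * τ'.coeff ν := by
    simp only [Term.coeff, tmul, ratVal_rmul, pow_add, List.map_append, List.prod_append,
      zpow_add₀ kappa_ne_zero]
    ring
  have h2 : (tmul τ τ').timeVal t = τ.timeVal t * τ'.timeVal t := by
    simp only [Term.timeVal, tmul, List.map_append, List.prod_append]
  have h3 : (tmul τ τ').spaceVal x = τ.spaceVal x * τ'.spaceVal x := by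
    simp only [Term.spaceVal, tmul, List.map_append, List.prod_append, Finset.prod_mul_distrib]
  simp only [Term.val, h1, h2, h3]
  ring

theorem tmul_valid {τ τ' : Term} (h : τ.Valid ∧ τ.isPeriodic = true)
    (h' : τ'.Valid ∧ τ'.isPeriodic = true) : (tmul τ τ').Valid ∧ (tmul τ τ').isPeriodic = true := by
  obtain ⟨⟨a1, a2, a3⟩, a4⟩ := h
  obtain ⟨⟨b1, b2, b3⟩, b4⟩ := h'
  refine ⟨⟨?_, ?_, ?_⟩, ?_⟩
  · intro r hr
    rcases List.mem_append.1 hr with hr | hr
    · exact a1 r hr
    · exact b1 r hr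
  · intro g hg
    rcases List.mem_append.1 hg with hg | hg
    · exact a2 g hg
    · exact b2 g hg
  · intro i g hg
    rcases List.mem_append.1 hg with hg | hg
    · exact a3 i g hg
    · exact b3 i g hg
  · simp only [Term.isPeriodic, tmul, List.all_append, Bool.and_eq_true] at a4 b4 ⊢
    exact ⟨a4, b4⟩

theorem evalTerms_map_tmul (τ : Term) (L : List Term) (ν t : ℝ) (x : Fin 3 → ℝ) :
    evalTerms (L.map (tmul τ)) ν t x = τ.val ν t x * evalTerms L ν t x := by
  induction L with
  | nil => simp [evalTerms]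
  | cons τ' L ih => rw [List.map_cons, evalTerms_cons, ih, tmul_val, evalTerms_cons, mul_add]

theorem IsAdm.mul {F G : ℝ → ℝ → (Fin 3 → ℝ) → ℝ} (hF : IsAdm F) (hG : IsAdm G) :
    IsAdm fun ν t x => F ν t x * G ν t x := by
  obtain ⟨L, hL, h⟩ := hF
  obtain ⟨L', hL', h'⟩ := hG
  simp only [h, h']
  clear h h'
  induction L with
  | nil => simpa [evalTerms_nil] using isAdm_zero
  | cons τ L ih =>
    have h1 : IsAdm fun ν t x => τ.val ν t x * evalTerms L' ν t x := by
      refine ⟨L'.map (tmul τ), ?_, fun ν t x => (evalTerms_map_tmul _ _ _ _ _).symm⟩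
      intro τ' hτ'
      obtain ⟨τ'', h2, rfl⟩ := List.mem_map.1 hτ'
      exact tmul_valid (hL τ List.mem_cons_self) (hL' τ'' h2)
    have h2 := h1.add (ih fun τ' hτ' => hL τ' (List.mem_cons_of_mem _ hτ'))
    simpa only [evalTerms_cons, add_mul] using h2

theorem isAdm_one_term (τ : Term) (h : τ.Valid) (hp : τ.isPeriodic = true) :
    IsAdm fun ν t x => τ.val ν t x :=
  ⟨[τ], by simpa using ⟨h, hp⟩, fun ν t x => by simp [evalTerms]⟩

theorem isAdm_rat (q : ℚ) : IsAdm fun _ _ _ => (q : ℝ) := by
  obtain ⟨r, hr⟩ := exists_ratVal q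
  have := isAdm_one_term ⟨r, 0, 0, [], [], fun _ => []⟩ (by simp [Term.Valid])
    (by simp [Term.isPeriodic])
  simpa [Term.val, Term.coeff, Term.timeVal, Term.spaceVal, hr] using this

theorem isAdm_nu : IsAdm fun ν _ _ => ν := by
  obtain ⟨r, hr⟩ := exists_ratVal 1
  have := isAdm_one_term ⟨r, 1, 0, [], [], fun _ => []⟩ (by simp [Term.Valid])
    (by simp [Term.isPeriodic])
  simpa [Term.val, Term.coeff, Term.timeVal, Term.spaceVal, hr] using this

theorem isAdm_kappa_zpow (n : ℤ) : IsAdm fun _ _ _ => kappa ^ n := by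
  obtain ⟨r, hr⟩ := exists_ratVal 1
  have := isAdm_one_term ⟨r, 0, n, [], [], fun _ => []⟩ (by simp [Term.Valid])
    (by simp [Term.isPeriodic])
  simpa [Term.val, Term.coeff, Term.timeVal, Term.spaceVal, hr] using this

theorem isAdm_kappa_inv : IsAdm fun _ _ _ => kappa⁻¹ := by
  simpa using isAdm_kappa_zpow (-1)

/-- periodized bumps of time -/
theorem isAdm_time {g : Bump} (hg : g.Valid) : IsAdm fun _ t _ => periodize g.val t := by
  obtain ⟨r, hr⟩ := exists_ratVal 1
  have := isAdm_one_term ⟨r, 0, 0, [], [(true, g)], fun _ => []⟩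
    ⟨by simp, by simpa using hg, by simp⟩ (by simp [Term.isPeriodic])
  simpa [Term.val, Term.coeff, Term.timeVal, Term.spaceVal, hr] using this

/-- periodized bumps of a space variable -/
theorem isAdm_space {g : Bump} (hg : g.Valid) (j : Fin 3) :
    IsAdm fun _ _ x => periodize g.val (x j) := by
  obtain ⟨r, hr⟩ := exists_ratVal 1
  have := isAdm_one_term ⟨r, 0, 0, [], [], Function.update (fun _ => []) j [g]⟩
    ⟨by simp, by simp, by
      intro i g' hg'
      rcases eq_or_ne i j with rfl | h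
      · simp only [Function.update_self, List.mem_singleton] at hg'
        subst hg'; exact hg
      · simp [Function.update_of_ne h] at hg'⟩ (by simp [Term.isPeriodic])
  have e : ∀ x : Fin 3 → ℝ, ∏ i, ((Function.update (fun _ : Fin 3 => ([] : List Bump)) j [g] i).map
      fun g => periodize g.val (x i)).prod = periodize g.val (x j) := by
    intro x
    rw [Finset.prod_eq_single j]
    · simp
    · intro i _ hi
      simp [Function.update_of_ne hi]
    · simp
  simpa only [Term.val, Term.coeff, Term.timeVal, Term.spaceVal, hr, e, Rat.cast_one, pow_zero,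
    zpow_zero, List.map_nil, List.prod_nil, mul_one, one_mul] using this

/-! ### Derivatives -/

/-- change of the coefficient and of the time factors -/
noncomputable def withTime (τ : Term) (d : (ℤ × ℕ) × List (Bool × Bump)) : Term :=
  { τ with q := rmul τ.q d.1, time := d.2 }

/-- change of the coefficient and of the space factors of one variable -/
noncomputable def withSpace (τ : Term) (j : Fin 3) (d : (ℤ × ℕ) × List Bump) : Term :=
  { τ with q := rmul τ.q d.1, space := Function.update τ.space j d.2 }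

theorem exists_term_dt (τ : Term) (h : τ.Valid) : ∃ L : List Term,
    (∀ σ ∈ L, σ.Valid ∧ σ.isPeriodic = τ.isPeriodic) ∧
      ∀ ν t x, HasDerivAt (fun s => τ.val ν s x) (evalTerms L ν t x) t := by
  obtain ⟨D, hD, h1⟩ := exists_tprod_deriv h.2.1
  refine ⟨D.map (withTime τ), ?_, fun ν t x => ?_⟩
  · intro σ hσ
    obtain ⟨d, hd, rfl⟩ := List.mem_map.1 hσ
    obtain ⟨h2, h3⟩ := hD d hd
    refine ⟨⟨h.1, h2, h.2.2⟩, ?_⟩
    have e : ∀ l : List (Bool × Bump), (l.all fun g => g.1) = (l.map Prod.fst).all id := by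
      intro l; simp [List.all_map]
    simp only [Term.isPeriodic, withTime]
    rw [e, e, h3]
  · have h2 := ((h1 t).const_mul (τ.coeff ν)).mul_const (τ.spaceVal x)
    refine h2.congr_deriv ?_
    unfold tcomb evalTerms
    rw [List.map_map, ← List.sum_map_mul_left, ← List.sum_map_mul_right]
    congr 1
    apply List.map_congr_left
    intro d _
    simp only [Function.comp_apply, Term.val, Term.coeff, withTime, ratVal_rmul, timeVal_eq,
      Term.spaceVal]
    ring

theorem exists_term_dx (τ : Term) (h : τ.Valid) (j : Fin 3) : ∃ L : List Term,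
    (∀ σ ∈ L, σ.Valid ∧ σ.isPeriodic = τ.isPeriodic) ∧
      ∀ ν t x, HasLineDerivAt ℝ (τ.val ν t) (evalTerms L ν t x) x (Pi.single j 1) := by
  obtain ⟨D, hD, h1⟩ := exists_sprod_deriv (h.2.2 j)
  refine ⟨D.map (withSpace τ j), ?_, fun ν t x => ?_⟩
  · intro σ hσ
    obtain ⟨d, hd, rfl⟩ := List.mem_map.1 hσ
    refine ⟨⟨h.1, h.2.1, ?_⟩, rfl⟩
    intro i g hg
    rcases eq_or_ne i j with rfl | hij
    · simp only [withSpace, Function.update_self] at hg
      exact hD d hd g hg
    · simp only [withSpace, Function.update_of_ne hij] at hg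
      exact h.2.2 i g hg
  · have e0 : ∀ (s : Fin 3 → List Bump) (y : Fin 3 → ℝ), ∏ i, sprod (s i) (y i) =
        sprod (s j) (y j) * ∏ i ∈ Finset.univ.erase j, sprod (s i) (y i) := fun s y =>
      (Finset.mul_prod_erase _ _ (Finset.mem_univ j)).symm
    have e1 : ∀ s : ℝ, τ.val ν t (x + s • Pi.single j 1) = τ.coeff ν * τ.timeVal t *
        (sprod (τ.space j) (x j + s) *
          ∏ i ∈ Finset.univ.erase j, sprod (τ.space i) (x i)) := by
      intro s
      rw [Term.val, spaceVal_eq, e0]
      congr 2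
      · simp
      · apply Finset.prod_congr rfl
        intro i hi
        have : i ≠ j := (Finset.mem_erase.1 hi).1
        simp [Pi.single_eq_of_ne this]
    have h2 : HasDerivAt (fun s : ℝ => sprod (τ.space j) (x j + s))
        ((D.map fun d => (ratVal d.1 : ℝ) * sprod d.2 (x j)).sum) 0 := by
      have h3 := h1 (x j + 0)
      have h4 := h3.comp_const_add (x j) 0
      simpa only [add_zero] using h4
    unfold HasLineDerivAt
    have h5 := (h2.mul_const (∏ i ∈ Finset.univ.erase j, sprod (τ.space i) (x i))).const_mul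
      (τ.coeff ν * τ.timeVal t)
    have e2 : (fun s : ℝ => τ.val ν t (x + s • Pi.single j 1)) = fun s => τ.coeff ν *
        τ.timeVal t * (sprod (τ.space j) (x j + s) *
          ∏ i ∈ Finset.univ.erase j, sprod (τ.space i) (x i)) := funext e1
    rw [e2]
    refine h5.congr_deriv ?_
    unfold evalTerms
    rw [List.map_map, ← List.sum_map_mul_right, ← List.sum_map_mul_left]
    congr 1
    apply List.map_congr_left
    intro d _
    simp only [Function.comp_apply, Term.val, spaceVal_eq]
    rw [e0]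
    have e3 : ∏ i ∈ Finset.univ.erase j, sprod ((withSpace τ j d).space i) (x i) =
        ∏ i ∈ Finset.univ.erase j, sprod (τ.space i) (x i) := by
      apply Finset.prod_congr rfl
      intro i hi
      have : i ≠ j := (Finset.mem_erase.1 hi).1
      simp [withSpace, Function.update_of_ne this]
    rw [e3]
    simp only [withSpace, Function.update_self, Term.coeff, ratVal_rmul, Term.timeVal]
    ring

theorem exists_terms_dt (L : List Term) (h : ∀ τ ∈ L, τ.Valid ∧ τ.isPeriodic = true) :
    ∃ L' : List Term, (∀ σ ∈ L', σ.Valid ∧ σ.isPeriodic = true) ∧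
      ∀ ν t x, HasDerivAt (fun s => evalTerms L ν s x) (evalTerms L' ν t x) t := by
  induction L with
  | nil => exact ⟨[], by simp, fun ν t x => by simpa [evalTerms] using hasDerivAt_const t (0 : ℝ)⟩
  | cons τ L ih =>
    obtain ⟨L1, h1, h2⟩ := ih fun τ' hτ' => h τ' (List.mem_cons_of_mem _ hτ')
    obtain ⟨L2, h3, h4⟩ := exists_term_dt τ (h τ List.mem_cons_self).1
    refine ⟨L2 ++ L1, ?_, fun ν t x => ?_⟩
    · intro σ hσ
      rcases List.mem_append.1 hσ with hσ | hσ
      · exact ⟨(h3 σ hσ).1, by rw [(h3 σ hσ).2]; exact (h τ List.mem_cons_self).2⟩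
      · exact h1 σ hσ
    · rw [evalTerms_append]
      have := (h4 ν t x).add (h2 ν t x)
      simp only [evalTerms_cons]
      exact this

theorem exists_terms_dx (L : List Term) (h : ∀ τ ∈ L, τ.Valid ∧ τ.isPeriodic = true)
    (j : Fin 3) : ∃ L' : List Term, (∀ σ ∈ L', σ.Valid ∧ σ.isPeriodic = true) ∧
      ∀ ν t x, HasLineDerivAt ℝ (evalTerms L ν t) (evalTerms L' ν t x) x (Pi.single j 1) := by
  induction L with
  | nil =>
    refine ⟨[], by simp, fun ν t x => ?_⟩
    have : evalTerms [] ν t = fun _ => 0 := by funext y; rfl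
    rw [this]
    exact hasDerivAt_const _ _
  | cons τ L ih =>
    obtain ⟨L1, h1, h2⟩ := ih fun τ' hτ' => h τ' (List.mem_cons_of_mem _ hτ')
    obtain ⟨L2, h3, h4⟩ := exists_term_dx τ (h τ List.mem_cons_self).1 j
    refine ⟨L2 ++ L1, ?_, fun ν t x => ?_⟩
    · intro σ hσ
      rcases List.mem_append.1 hσ with hσ | hσ
      · exact ⟨(h3 σ hσ).1, by rw [(h3 σ hσ).2]; exact (h τ List.mem_cons_self).2⟩
      · exact h1 σ hσ
    · rw [evalTerms_append]
      have := (h4 ν t x).add (h2 ν t x)
      have e : evalTerms (τ :: L) ν t = fun y => τ.val ν t y + evalTerms L ν t y := by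
        funext y; exact evalTerms_cons _ _ _ _ _
      rw [e]
      exact this

/-- time derivatives of admissible functions are admissible -/
theorem IsAdm.exists_dt {F : ℝ → ℝ → (Fin 3 → ℝ) → ℝ} (hF : IsAdm F) :
    ∃ F', IsAdm F' ∧ ∀ ν t x, HasDerivAt (fun s => F ν s x) (F' ν t x) t := by
  obtain ⟨L, hL, h⟩ := hF
  obtain ⟨L', h1, h2⟩ := exists_terms_dt L hL
  refine ⟨fun ν t x => evalTerms L' ν t x, ⟨L', h1, fun _ _ _ => rfl⟩, fun ν t x => ?_⟩
  have e : (fun s => F ν s x) = fun s => evalTerms L ν s x := funext fun s => h ν s x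
  rw [e]
  exact h2 ν t x

/-- space derivatives of admissible functions are admissible -/
theorem IsAdm.exists_dx {F : ℝ → ℝ → (Fin 3 → ℝ) → ℝ} (hF : IsAdm F) (j : Fin 3) :
    ∃ F', IsAdm F' ∧ ∀ ν t x, HasLineDerivAt ℝ (F ν t) (F' ν t x) x (Pi.single j 1) := by
  obtain ⟨L, hL, h⟩ := hF
  obtain ⟨L', h1, h2⟩ := exists_terms_dx L hL j
  refine ⟨fun ν t x => evalTerms L' ν t x, ⟨L', h1, fun _ _ _ => rfl⟩, fun ν t x => ?_⟩
  have e : F ν t = evalTerms L ν t := funext fun s => h ν t s
  rw [e]
  exact h2 ν t x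

/-! ### Regularity and periodicity -/

theorem periodize_val_contDiff {g : Bump} (hg : g.Valid) {n : ℕ∞} :
    ContDiff ℝ n (periodize g.val) := by
  obtain ⟨R, hR⟩ := exists_suppIn hg
  exact per_contDiff hR (val_contDiff g)

theorem sprod_contDiff {l : List Bump} (h : ∀ g ∈ l, g.Valid) {n : ℕ∞} :
    ContDiff ℝ n (sprod l) := by
  induction l with
  | nil => exact contDiff_const
  | cons g l ih =>
    have e : sprod (g :: l) = fun y => periodize g.val y * sprod l y := by
      funext y; simp [sprod]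
    rw [e]
    exact (periodize_val_contDiff (h g List.mem_cons_self)).mul
      (ih fun g' hg' => h g' (List.mem_cons_of_mem _ hg'))

theorem tval_contDiff {g : Bool × Bump} (hg : g.2.Valid) {n : ℕ∞} : ContDiff ℝ n (tval g) := by
  rcases h : g.1 with _ | _
  · have e1 : tval g = g.2.val := by funext t; simp [tval, h]
    rw [e1]; exact val_contDiff _
  · have e1 : tval g = periodize g.2.val := by funext t; simp [tval, h]
    rw [e1]; exact periodize_val_contDiff hg

theorem tprod_contDiff {l : List (Bool × Bump)} (h : ∀ g ∈ l, g.2.Valid) {n : ℕ∞} :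
    ContDiff ℝ n (tprod l) := by
  induction l with
  | nil => exact contDiff_const
  | cons g l ih =>
    have e : tprod (g :: l) = fun y => tval g y * tprod l y := by
      funext y; simp [tprod]
    rw [e]
    exact (tval_contDiff (h g List.mem_cons_self)).mul
      (ih fun g' hg' => h g' (List.mem_cons_of_mem _ hg'))

theorem term_contDiff {τ : Term} (h : τ.Valid) (ν : ℝ) {n : ℕ∞} :
    ContDiff ℝ n fun z : ℝ × (Fin 3 → ℝ) => τ.val ν z.1 z.2 := by
  have h1 : ContDiff ℝ n fun z : ℝ × (Fin 3 → ℝ) => tprod τ.time z.1 :=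
    (tprod_contDiff h.2.1).comp contDiff_fst
  have h2 : ∀ i, ContDiff ℝ n fun z : ℝ × (Fin 3 → ℝ) => sprod (τ.space i) (z.2 i) := fun i =>
    (sprod_contDiff (h.2.2 i)).comp ((contDiff_apply ℝ ℝ i).comp contDiff_snd)
  exact (contDiff_const.mul h1).mul (contDiff_prod fun i _ => h2 i)

theorem evalTerms_contDiff {L : List Term} (h : ∀ τ ∈ L, τ.Valid) (ν : ℝ) {n : ℕ∞} :
    ContDiff ℝ n fun z : ℝ × (Fin 3 → ℝ) => evalTerms L ν z.1 z.2 := by
  induction L with
  | nil => exact contDiff_const
  | cons τ L ih =>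
    simp only [evalTerms_cons]
    exact (term_contDiff (h τ List.mem_cons_self) ν).add
      (ih fun τ' hτ' => h τ' (List.mem_cons_of_mem _ hτ'))

theorem IsAdm.contDiff {F : ℝ → ℝ → (Fin 3 → ℝ) → ℝ} (hF : IsAdm F) (ν : ℝ) {n : ℕ∞} :
    ContDiff ℝ n fun z : ℝ × (Fin 3 → ℝ) => F ν z.1 z.2 := by
  obtain ⟨L, hL, h⟩ := hF
  simp only [h]
  exact evalTerms_contDiff (fun τ hτ => (hL τ hτ).1) ν

theorem term_isPer (τ : Term) (ν t : ℝ) : IsPer (τ.val ν t) := by
  intro x k
  have : ∀ i, sprod (τ.space i) (x i + k i) = sprod (τ.space i) (x i) := by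
    intro i
    unfold sprod
    congr 1
    apply List.map_congr_left
    intro g _
    exact per_add_int _ _ _
  simp only [Term.val, spaceVal_eq, this]

theorem evalTerms_isPer (L : List Term) (ν t : ℝ) : IsPer (evalTerms L ν t) := by
  intro x k
  induction L with
  | nil => rfl
  | cons τ L ih => rw [evalTerms_cons, evalTerms_cons, ih, term_isPer τ ν t x k]

theorem IsAdm.isPer {F : ℝ → ℝ → (Fin 3 → ℝ) → ℝ} (hF : IsAdm F) (ν t : ℝ) : IsPer (F ν t) := by
  obtain ⟨L, hL, h⟩ := hF
  intro x k
  rw [h, h]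
  exact evalTerms_isPer L ν t x k

/-- the time period of periodic terms -/
theorem tprod_add_one {l : List (Bool × Bump)} (h : ∀ g ∈ l, g.1 = true) (t : ℝ) :
    tprod l (t + 1) = tprod l t := by
  unfold tprod
  congr 1
  apply List.map_congr_left
  intro g hg
  simp only [tval, h g hg, if_true]
  exact per_add_one _ _

theorem IsAdm.add_one {F : ℝ → ℝ → (Fin 3 → ℝ) → ℝ} (hF : IsAdm F) (ν t : ℝ) (x : Fin 3 → ℝ) :
    F ν (t + 1) x = F ν t x := by
  obtain ⟨L, hL, h⟩ := hF
  rw [h, h]
  clear h
  induction L with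
  | nil => rfl
  | cons τ L ih =>
    rw [evalTerms_cons, evalTerms_cons, ih fun τ' hτ' => hL τ' (List.mem_cons_of_mem _ hτ')]
    congr 1
    have := (hL τ List.mem_cons_self).2
    simp only [Term.isPeriodic, List.all_eq_true] at this
    simp only [Term.val, timeVal_eq, tprod_add_one this]

end Vale.Agent.P113.H803
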