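import Vale.Agent.P113.Defs

set_option autoImplicit false

/-! The basic bump `ρ`, its integral `κ`, its primitive `σ` and the plateau functions `π_l`. -/

namespace Vale.Agent.P113.H803

open Vale.Agent.P113

open MeasureTheory Set

theorem rho_eq (s : ℝ) : rho s = expNegInvGlue (1 - s ^ 2) := by
  unfold rho expNegInvGlue
  by_cases h : |s| < 1
  · have h1 : s ^ 2 < 1 := by
      rw [← sq_abs]; nlinarith [abs_nonneg s]
    rw [if_pos h, if_neg (by linarith)]
    congr 1
    rw [neg_div, one_div]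
  · have h1 : 1 ≤ s ^ 2 := by
      rw [← sq_abs]; nlinarith [abs_nonneg s]
    rw [if_neg h, if_pos (by linarith)]

theorem rho_contDiff {n : ℕ∞} : ContDiff ℝ n rho := by
  have h : rho = fun s => expNegInvGlue (1 - s ^ 2) := funext rho_eq
  rw [h]
  exact expNegInvGlue.contDiff.comp (contDiff_const.sub (contDiff_id.pow 2))

theorem rho_continuous : Continuous rho := rho_contDiff (n := 0) |>.continuous

theorem rho_nonneg (s : ℝ) : 0 ≤ rho s := by
  rw [rho_eq]; exact expNegInvGlue.nonneg _

theorem rho_pos {s : ℝ} (h1 : -1 < s) (h2 : s < 1) : 0 < rho s := by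
  rw [rho_eq]; exact expNegInvGlue.pos_of_pos (by nlinarith)

theorem rho_eq_zero {s : ℝ} (h : 1 ≤ |s|) : rho s = 0 := by
  unfold rho; rw [if_neg (by linarith)]

theorem rho_of_le {s : ℝ} (h : s ≤ -1) : rho s = 0 :=
  rho_eq_zero (by rw [le_abs]; right; linarith)

theorem rho_of_ge {s : ℝ} (h : 1 ≤ s) : rho s = 0 :=
  rho_eq_zero (by rw [le_abs]; left; exact h)

theorem support_rho : Function.support rho ⊆ Icc (-1) 1 := by
  intro s hs
  by_contra h
  rw [mem_Icc, not_and_or, not_le, not_le] at h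
  rcases h with h | h
  · exact hs (rho_of_le h.le)
  · exact hs (rho_of_ge h.le)

theorem hasCompactSupport_rho : HasCompactSupport rho :=
  HasCompactSupport.of_support_subset_isCompact isCompact_Icc support_rho

theorem integrable_rho : Integrable rho := rho_continuous.integrable_of_hasCompactSupport
  hasCompactSupport_rho

theorem kappa_pos : 0 < kappa := by
  unfold kappa
  rw [integral_pos_iff_support_of_nonneg rho_nonneg integrable_rho]
  have h : Ioo (-1 : ℝ) 1 ⊆ Function.support rho := fun s hs => (rho_pos hs.1 hs.2).ne'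
  refine lt_of_lt_of_le ?_ (measure_mono h)
  rw [Real.volume_Ioo]
  norm_num

theorem kappa_ne_zero : kappa ≠ 0 := kappa_pos.ne'

theorem sigma_eq_integral (s : ℝ) : sigma s = ∫ t in (-1 : ℝ)..s, rho t := by
  unfold sigma
  have h1 : ∫ t in Iic (-1 : ℝ), rho t = 0 :=
    setIntegral_eq_zero_of_forall_eq_zero fun t ht => rho_of_le ht
  have h2 := intervalIntegral.integral_Iic_sub_Iic (a := -1) (b := s)
    (integrable_rho.integrableOn) (integrable_rho.integrableOn)
  rw [h1, sub_zero] at h2
  exact h2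

theorem hasDerivAt_sigma (s : ℝ) : HasDerivAt sigma (rho s) s := by
  have h : sigma = fun s => ∫ t in (-1 : ℝ)..s, rho t := funext sigma_eq_integral
  rw [h]
  exact intervalIntegral.integral_hasDerivAt_right (rho_continuous.intervalIntegrable _ _)
    rho_continuous.stronglyMeasurable.stronglyMeasurableAtFilter rho_continuous.continuousAt

theorem deriv_sigma : deriv sigma = rho := funext fun s => (hasDerivAt_sigma s).deriv

theorem sigma_differentiable : Differentiable ℝ sigma := fun s =>
  (hasDerivAt_sigma s).differentiableAt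

theorem sigma_contDiff {n : ℕ∞} : ContDiff ℝ n sigma := by
  refine ContDiff.of_le (n := ((⊤ : ℕ∞) : WithTop ℕ∞)) ?_ (by exact_mod_cast le_top)
  rw [contDiff_infty_iff_deriv]
  exact ⟨sigma_differentiable, by rw [deriv_sigma]; exact rho_contDiff⟩

theorem sigma_continuous : Continuous sigma := sigma_differentiable.continuous

theorem sigma_monotone : Monotone sigma :=
  monotone_of_deriv_nonneg sigma_differentiable fun s => by
    rw [deriv_sigma]; exact rho_nonneg s

theorem sigma_of_le {s : ℝ} (h : s ≤ -1) : sigma s = 0 :=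
  setIntegral_eq_zero_of_forall_eq_zero fun t ht => rho_of_le (le_trans ht h)

theorem sigma_of_ge {s : ℝ} (h : 1 ≤ s) : sigma s = kappa := by
  unfold sigma kappa
  rw [← integral_add_compl (measurableSet_Iic (a := s)) integrable_rho]
  rw [setIntegral_eq_zero_of_forall_eq_zero (t := (Iic s)ᶜ), add_zero]
  intro t ht
  rw [mem_compl_iff, mem_Iic, not_le] at ht
  exact rho_of_ge (by linarith)

theorem sigma_nonneg (s : ℝ) : 0 ≤ sigma s := by
  rcases le_total s (-1) with h | h
  · rw [sigma_of_le h]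
  · rw [← sigma_of_le (le_refl (-1 : ℝ))]; exact sigma_monotone h

theorem sigma_le (s : ℝ) : sigma s ≤ kappa := by
  rcases le_total 1 s with h | h
  · rw [sigma_of_ge h]
  · rw [← sigma_of_ge (le_refl (1 : ℝ))]; exact sigma_monotone h

theorem hasDerivAt_plat (l s : ℝ) : HasDerivAt (piL l) (rho s - rho (s - l)) s := by
  have h1 := hasDerivAt_sigma s
  have h2 := (hasDerivAt_sigma (s - l)).comp_sub_const s l
  exact h1.sub h2

theorem plat_contDiff {n : ℕ∞} (l : ℝ) : ContDiff ℝ n (piL l) :=
  sigma_contDiff.sub (sigma_contDiff.comp (contDiff_id.sub contDiff_const))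

theorem plat_continuous (l : ℝ) : Continuous (piL l) := plat_contDiff (n := 0) l |>.continuous

theorem plat_nonneg {l : ℝ} (hl : 0 ≤ l) (s : ℝ) : 0 ≤ piL l s :=
  sub_nonneg.2 (sigma_monotone (by linarith))

theorem plat_le {l : ℝ} (s : ℝ) : piL l s ≤ kappa := by
  unfold piL
  have := sigma_nonneg (s - l)
  have := sigma_le s
  linarith

/-- off the support, on the left -/
theorem plat_of_le {l s : ℝ} (hl : 0 ≤ l) (h : s ≤ -1) : piL l s = 0 := by
  unfold piL; rw [sigma_of_le h, sigma_of_le (by linarith), sub_zero]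

/-- off the support, on the right -/
theorem plat_of_ge {l s : ℝ} (hl : 0 ≤ l) (h : l + 1 ≤ s) : piL l s = 0 := by
  unfold piL; rw [sigma_of_ge (by linarith), sigma_of_ge (by linarith), sub_self]

/-- the plateau -/
theorem plat_eq_kappa {l s : ℝ} (h1 : 1 ≤ s) (h2 : s ≤ l - 1) : piL l s = kappa := by
  unfold piL; rw [sigma_of_ge h1, sigma_of_le (by linarith), sub_zero]

theorem support_plat {l : ℝ} (hl : 0 ≤ l) : Function.support (piL l) ⊆ Icc (-1) (l + 1) := by
  intro s hs
  by_contra h
  rw [mem_Icc, not_and_or, not_le, not_le] at h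
  rcases h with h | h
  · exact hs (plat_of_le hl h.le)
  · exact hs (plat_of_ge hl h.le)

/-- the derivatives of `ρ` -/
theorem hasDerivAt_iteratedDeriv_rho (j : ℕ) (s : ℝ) :
    HasDerivAt (iteratedDeriv j rho) (iteratedDeriv (j + 1) rho s) s := by
  rw [iteratedDeriv_succ]
  have h : Differentiable ℝ (iteratedDeriv j rho) :=
    (rho_contDiff (n := (⊤ : ℕ∞))).differentiable_iteratedDeriv j (by
      exact_mod_cast WithTop.coe_lt_top _)
  exact (h s).hasDerivAt

theorem contDiff_iteratedDeriv_rho {n : ℕ∞} (j : ℕ) : ContDiff ℝ n (iteratedDeriv j rho) := by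
  have h : ContDiff ℝ ((⊤ : ℕ∞) : WithTop ℕ∞) rho := rho_contDiff
  have h2 : ContDiff ℝ ((⊤ : ℕ∞) : WithTop ℕ∞) (iteratedDeriv j rho) := by
    rw [contDiff_infty] at h ⊢
    intro m
    exact (h (m + j)).iterate_deriv' m j |> fun h3 => by rwa [← iteratedDeriv_eq_iterate] at h3
  exact h2.of_le (by exact_mod_cast le_top)

/-- a function vanishing on a half line has vanishing derivative there -/
theorem eq_zero_of_hasDerivAt_Ici {f : ℝ → ℝ} {c f' s : ℝ} (hs : c ≤ s) (h : HasDerivAt f f' s)
    (h0 : ∀ x, c ≤ x → f x = 0) : f' = 0 := by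
  have h1 : HasDerivWithinAt f 0 (Ici c) s :=
    (hasDerivWithinAt_const s (Ici c) (0 : ℝ)).congr (fun x hx => h0 x hx) (h0 s hs)
  exact (uniqueDiffOn_Ici c s hs).eq_deriv _ h.hasDerivWithinAt h1

theorem eq_zero_of_hasDerivAt_Iic {f : ℝ → ℝ} {c f' s : ℝ} (hs : s ≤ c) (h : HasDerivAt f f' s)
    (h0 : ∀ x, x ≤ c → f x = 0) : f' = 0 := by
  have h1 : HasDerivWithinAt f 0 (Iic c) s :=
    (hasDerivWithinAt_const s (Iic c) (0 : ℝ)).congr (fun x hx => h0 x hx) (h0 s hs)
  exact (uniqueDiffOn_Iic c s hs).eq_deriv _ h.hasDerivWithinAt h1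

theorem iteratedDeriv_rho_eq_zero (j : ℕ) {s : ℝ} (h : 1 ≤ |s|) : iteratedDeriv j rho s = 0 := by
  induction j generalizing s with
  | zero => rw [iteratedDeriv_zero]; exact rho_eq_zero h
  | succ j ih =>
    rcases le_abs.1 h with h1 | h1
    · exact eq_zero_of_hasDerivAt_Ici h1 (hasDerivAt_iteratedDeriv_rho j s)
        fun x hx => ih (le_abs.2 (Or.inl hx))
    · exact eq_zero_of_hasDerivAt_Iic (c := -1) (by linarith) (hasDerivAt_iteratedDeriv_rho j s)
        fun x hx => ih (le_abs.2 (Or.inr (by linarith)))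

end Vale.Agent.P113.H803
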